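import Mathlib

/-!
Singular spaces in the first Tits form of the exceptional Jordan algebra: the linear algebra of
the slides. The elements are triples `(X, Y, Z)` of matrices of degree three with
`(X, Y, Z)# = (X# - Z Y, Z# - Y X, Y# - X Z)`.
-/

open Matrix

namespace Vale.Agent.P011.E6O.Sl

variable {k E : Type} [Field k] [Field E] [Algebra k E]

/-- The semilinear map on the vectors. -/
def TR (ρ : E ≃ₐ[k] E) (lam : E) (r : Fin 3 → E) : Fin 3 → E := ![lam * ρ (r 2), ρ (r 0), ρ (r 1)]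

/-- The semilinear map on the component `X`. -/
def TX (ρ : E ≃ₐ[k] E) (lam : E) (X : Matrix (Fin 3) (Fin 3) E) : Matrix (Fin 3) (Fin 3) E :=
  !![lam⁻¹ * ρ (X 2 2), ρ (X 2 0), ρ (X 2 1);
     ρ (X 0 2), lam * ρ (X 0 0), lam * ρ (X 0 1);
     ρ (X 1 2), lam * ρ (X 1 0), lam * ρ (X 1 1)]

/-- The triple is singular. -/
def Sing (X Y Z : Matrix (Fin 3) (Fin 3) E) : Prop :=
  X.adjugate = Z * Y ∧ Z.adjugate = Y * X ∧ Y.adjugate = X * Z

section line

variable {ρ : E ≃ₐ[k] E} {lam : E}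

theorem no_line {V : Type} [AddCommGroup V] [Module E V] {φ : V → V}
    (hφ : ∀ (t : E) v, φ (t • v) = ρ t • φ v) (hφ3 : ∀ v, φ (φ (φ v)) = lam • v)
    (hN : ∀ x, x * ρ x * ρ (ρ x) ≠ lam) {v : V} {c : E} (h : φ v = c • v) : v = 0 := by
  by_contra h0
  have h1 := hφ3 v
  rw [h, hφ, h, smul_smul, hφ, h, smul_smul, map_mul] at h1
  apply hN c
  have h2 : (ρ (ρ c) * ρ c * c - lam) • v = 0 := by
    rw [sub_smul, h1, sub_self]
  rcases smul_eq_zero.mp h2 with h3 | h3
  · linear_combination h3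
  · exact absurd h3 h0

theorem TR_smul (t : E) (r : Fin 3 → E) : TR ρ lam (t • r) = ρ t • TR ρ lam r := by
  funext i
  fin_cases i <;> simp [TR] <;> ring

theorem TR_add (r s : Fin 3 → E) : TR ρ lam (r + s) = TR ρ lam r + TR ρ lam s := by
  funext i
  fin_cases i <;> simp [TR] <;> ring

theorem TR_cube (hρ : ∀ x, ρ (ρ (ρ x)) = x) (hl : ρ lam = lam) (r : Fin 3 → E) :
    TR ρ lam (TR ρ lam (TR ρ lam r)) = lam • r := by
  funext i
  fin_cases i <;> simp [TR, hρ, hl]

/-- Parallel vectors. -/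
theorem exists_of_cross {v w : Fin 3 → E} (hv : v ≠ 0)
    (h : v 1 * w 2 - v 2 * w 1 = 0 ∧ v 2 * w 0 - v 0 * w 2 = 0 ∧ v 0 * w 1 - v 1 * w 0 = 0) :
    ∃ c : E, w = c • v := by
  obtain ⟨h0, h1, h2⟩ := h
  obtain ⟨i, hi⟩ : ∃ i, v i ≠ 0 := by
    by_contra hc
    push Not at hc
    exact hv (funext hc)
  refine ⟨w i / v i, ?_⟩
  funext j
  rw [Pi.smul_apply, smul_eq_mul]
  field_simp
  fin_cases i <;> fin_cases j <;> simp only [Fin.zero_eta, Fin.mk_one, Fin.reduceFinMk,
    Fin.isValue] at hi ⊢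
  · linear_combination h2
  · linear_combination -h1
  · linear_combination -h2
  · linear_combination h0
  · linear_combination h1
  · linear_combination -h0

theorem no_line_TR (hρ : ∀ x, ρ (ρ (ρ x)) = x) (hl : ρ lam = lam)
    (hN : ∀ x, x * ρ x * ρ (ρ x) ≠ lam) {v : Fin 3 → E}
    (h : v 1 * TR ρ lam v 2 - v 2 * TR ρ lam v 1 = 0 ∧
      v 2 * TR ρ lam v 0 - v 0 * TR ρ lam v 2 = 0 ∧
      v 0 * TR ρ lam v 1 - v 1 * TR ρ lam v 0 = 0) : v = 0 := by
  by_contra hv
  obtain ⟨c, hc⟩ := exists_of_cross hv h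
  exact hv (no_line (fun t v => TR_smul t v) (TR_cube hρ hl) hN hc)

end line

section two

variable {ρ : E ≃ₐ[k] E} {lam : E} {B : Type} [AddCommGroup B] [Module E B]

/-- An equivariant map is zero or injective. -/
theorem schur (hρ : ∀ x, ρ (ρ (ρ x)) = x) (hl : ρ lam = lam)
    (hN : ∀ x, x * ρ x * ρ (ρ x) ≠ lam) (h3 : Module.finrank E B = 3) {φ : B → B}
    (hφ : ∀ (t : E) v, φ (t • v) = ρ t • φ v) (hφ3 : ∀ v, φ (φ (φ v)) = lam • v)
    {r : B →ₗ[E] (Fin 3 → E)} (hr : ∀ b, r (φ b) = TR ρ lam (r b)) (h0 : r ≠ 0) :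
    Function.Injective r := by
  have hfin : Module.Finite E B := Module.finite_of_finrank_pos (by omega)
  have hrk := LinearMap.finrank_range_add_finrank_ker r
  rw [h3] at hrk
  have hT0 : TR ρ lam 0 = 0 := by
    funext i
    fin_cases i <;> simp [TR]
  have h1 : Module.finrank E (LinearMap.range r) ≠ 0 := by
    intro h
    exact h0 (LinearMap.range_eq_bot.mp (Submodule.finrank_eq_zero.mp h))
  have h2 : Module.finrank E (LinearMap.range r) ≠ 1 := by
    intro h
    obtain ⟨v, hv, hs⟩ := finrank_eq_one_iff'.mp h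
    obtain ⟨b, hb⟩ := v.2
    obtain ⟨c, hc⟩ := hs ⟨TR ρ lam v, ⟨φ b, by rw [hr, hb]⟩⟩
    exact hv (Subtype.ext (no_line (fun t v => TR_smul t v) (TR_cube hρ hl) hN
      (congrArg Subtype.val hc).symm))
  have h4 : Module.finrank E (LinearMap.ker r) ≠ 1 := by
    intro h
    obtain ⟨v, hv, hs⟩ := finrank_eq_one_iff'.mp h
    have hv' : r v = 0 := v.2
    obtain ⟨c, hc⟩ := hs ⟨φ v, by rw [LinearMap.mem_ker, hr, hv', hT0]⟩
    exact hv (Subtype.ext (no_line hφ hφ3 hN (congrArg Subtype.val hc).symm))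
  exact LinearMap.ker_eq_bot.mp (Submodule.finrank_eq_zero.mp (by omega))

/-- Two parallel equivariant maps. -/
theorem parallel (hρ : ∀ x, ρ (ρ (ρ x)) = x) (hl : ρ lam = lam)
    (hN : ∀ x, x * ρ x * ρ (ρ x) ≠ lam) (h3 : Module.finrank E B = 3) {φ : B → B}
    (hφ : ∀ (t : E) v, φ (t • v) = ρ t • φ v) (hφ3 : ∀ v, φ (φ (φ v)) = lam • v)
    {r s : B →ₗ[E] (Fin 3 → E)} (hr : ∀ b, r (φ b) = TR ρ lam (r b))
    (hs : ∀ b, s (φ b) = TR ρ lam (s b))
    (h : ∀ b, r b 1 * s b 2 - r b 2 * s b 1 = 0 ∧ r b 2 * s b 0 - r b 0 * s b 2 = 0 ∧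
      r b 0 * s b 1 - r b 1 * s b 0 = 0) :
    ∃ (g1 g2 : E) (t : B →ₗ[E] (Fin 3 → E)), ρ g1 = g1 ∧ ρ g2 = g2 ∧ (g1 ≠ 0 ∨ g2 ≠ 0) ∧
      (∀ b, t (φ b) = TR ρ lam (t b)) ∧ r = g1 • t ∧ s = g2 • t := by
  by_cases h0 : r = 0
  · exact ⟨0, 1, s, map_zero _, map_one _, Or.inr one_ne_zero, hs, by rw [h0, zero_smul],
      by rw [one_smul]⟩
  have hinj := schur hρ hl hN h3 hφ hφ3 hr h0
  obtain ⟨b, hb⟩ : ∃ b, r b ≠ 0 := by
    by_contra hc
    push Not at hc
    exact h0 (LinearMap.ext hc)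
  obtain ⟨c, hc⟩ := exists_of_cross hb (h b)
  -- the eigenvalue is rational
  have hc2 : s (φ b) = ρ c • r (φ b) := by rw [hs, hc, TR_smul, hr]
  have hρc : ρ c = c := by
    by_contra hne
    apply hb
    refine no_line_TR (ρ := ρ) (lam := lam) hρ hl hN ?_
    have h1 := h (b + φ b)
    rw [map_add, map_add, hc, hc2, hr] at h1
    have hne' : ρ c - c ≠ 0 := sub_ne_zero.mpr hne
    obtain ⟨e0, e1, e2⟩ := h1
    simp only [Pi.add_apply, Pi.smul_apply, smul_eq_mul] at e0 e1 e2
    refine ⟨?_, ?_, ?_⟩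
    · apply mul_left_cancel₀ hne'
      linear_combination e0
    · apply mul_left_cancel₀ hne'
      linear_combination e1
    · apply mul_left_cancel₀ hne'
      linear_combination e2
  have hz : s - c • r = 0 := by
    by_contra hne
    have h1 : ∀ x, (s - c • r) (φ x) = TR ρ lam ((s - c • r) x) := by
      intro x
      rw [LinearMap.sub_apply, LinearMap.sub_apply, LinearMap.smul_apply, LinearMap.smul_apply,
        hs, hr, sub_eq_add_neg, sub_eq_add_neg, TR_add, ← neg_one_smul E (c • r x), smul_smul,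
        TR_smul, map_mul, hρc, map_neg, map_one, neg_one_mul, neg_smul]
    have h2 := schur hρ hl hN h3 hφ hφ3 h1 hne
    have h4 : (s - c • r) b = (s - c • r) 0 := by
      rw [LinearMap.sub_apply, LinearMap.smul_apply, hc, sub_self, map_zero]
    have h5 := h2 h4
    rw [h5, map_zero] at hb
    exact hb rfl
  refine ⟨1, c, r, map_one _, hρc, Or.inl one_ne_zero, hr, by rw [one_smul], ?_⟩
  exact sub_eq_zero.mp hz

end two

/-- A stable singular space of dimension three. -/
structure Dta (ρ : E ≃ₐ[k] E) (lam : E) {B : Type} [AddCommGroup B] [Module E B] (φ : B → B)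
    (X Y Z : B →ₗ[E] Matrix (Fin 3) (Fin 3) E) : Prop where
  /-- the cube of the automorphism -/
  hρ : ∀ x, ρ (ρ (ρ x)) = x
  /-- the parameter is rational -/
  hl : ρ lam = lam
  /-- the algebra is a division algebra -/
  hN : ∀ x, x * ρ x * ρ (ρ x) ≠ lam
  /-- the dimension -/
  h3 : Module.finrank E B = 3
  /-- semilinearity -/
  hφ : ∀ (t : E) v, φ (t • v) = ρ t • φ v
  /-- the cube of the semilinear map -/
  hφ3 : ∀ v, φ (φ (φ v)) = lam • v
  /-- first component -/
  hX : ∀ b, X (φ b) = TX ρ lam (X b)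
  /-- second component -/
  hY : ∀ b i, Y (φ b) i = TR ρ lam (Y b i)
  /-- third component -/
  hZ : ∀ b i, (fun j => Z (φ b) j i) = TR ρ lam (fun j => Z b j i)
  /-- the elements are singular -/
  sing : ∀ b, Sing (X b) (Y b) (Z b)

section main

variable {ρ : E ≃ₐ[k] E} {lam : E} {B : Type} [AddCommGroup B] [Module E B] {φ : B → B}
  {X Y Z : B →ₗ[E] Matrix (Fin 3) (Fin 3) E}

/-- A row of the second component. -/
def rowY (Y : B →ₗ[E] Matrix (Fin 3) (Fin 3) E) (i : Fin 3) : B →ₗ[E] (Fin 3 → E) where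
  toFun b := Y b i
  map_add' x y := by rw [map_add]; rfl
  map_smul' t x := by rw [map_smul]; rfl

/-- A column of the third component. -/
def colZ (Z : B →ₗ[E] Matrix (Fin 3) (Fin 3) E) (i : Fin 3) : B →ₗ[E] (Fin 3 → E) where
  toFun b := fun j => Z b j i
  map_add' x y := by rw [map_add]; rfl
  map_smul' t x := by rw [map_smul]; rfl

/-- A column of the adjugate. -/
theorem adj_col {A : Matrix (Fin 3) (Fin 3) E} (j : Fin 3) (h : ∀ i, A.adjugate i j = 0) :
    let v := A (j + 1)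
    let w := A (j + 2)
    v 1 * w 2 - v 2 * w 1 = 0 ∧ v 2 * w 0 - v 0 * w 2 = 0 ∧ v 0 * w 1 - v 1 * w 0 = 0 := by
  intro v w
  have h0 := h 0
  have h1 := h 1
  have h2 := h 2
  rw [Matrix.adjugate_fin_three] at h0 h1 h2
  fin_cases j
  · change A 1 1 * A 2 2 - A 1 2 * A 2 1 = 0 ∧ A 1 2 * A 2 0 - A 1 0 * A 2 2 = 0 ∧
      A 1 0 * A 2 1 - A 1 1 * A 2 0 = 0
    simp at h0 h1 h2
    refine ⟨?_, ?_, ?_⟩
    · linear_combination h0
    · linear_combination h1
    · linear_combination h2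
  · change A 2 1 * A 0 2 - A 2 2 * A 0 1 = 0 ∧ A 2 2 * A 0 0 - A 2 0 * A 0 2 = 0 ∧
      A 2 0 * A 0 1 - A 2 1 * A 0 0 = 0
    simp at h0 h1 h2
    refine ⟨?_, ?_, ?_⟩
    · linear_combination h0
    · linear_combination h1
    · linear_combination h2
  · change A 0 1 * A 1 2 - A 0 2 * A 1 1 = 0 ∧ A 0 2 * A 1 0 - A 0 0 * A 1 2 = 0 ∧
      A 0 0 * A 1 1 - A 0 1 * A 1 0 = 0
    simp at h0 h1 h2
    refine ⟨?_, ?_, ?_⟩
    · linear_combination h0
    · linear_combination h1
    · linear_combination h2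

/-- The vector product. -/
def cr (v w : Fin 3 → E) : Fin 3 → E :=
  ![v 1 * w 2 - v 2 * w 1, v 2 * w 0 - v 0 * w 2, v 0 * w 1 - v 1 * w 0]

/-- The minors of a matrix with zero adjugate. -/
theorem minor {A : Matrix (Fin 3) (Fin 3) E} (h : A.adjugate = 0) (i i' j j' : Fin 3) :
    A i j * A i' j' = A i j' * A i' j := by
  have e := fun i j => congrFun (congrFun h i) j
  have e00 := e 0 0
  have e01 := e 0 1
  have e02 := e 0 2
  have e10 := e 1 0
  have e11 := e 1 1
  have e12 := e 1 2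
  have e20 := e 2 0
  have e21 := e 2 1
  have e22 := e 2 2
  rw [Matrix.adjugate_fin_three] at e00 e01 e02 e10 e11 e12 e20 e21 e22
  simp at e00 e01 e02 e10 e11 e12 e20 e21 e22
  fin_cases i <;> fin_cases i' <;> try simp only [Fin.zero_eta, Fin.mk_one, Fin.reduceFinMk,
    Fin.isValue]
  · ring
  · fin_cases j <;> fin_cases j' <;> simp only [Fin.zero_eta, Fin.mk_one, Fin.reduceFinMk,
      Fin.isValue] <;> first | ring1 | linear_combination e02 | linear_combination -e02 |
      linear_combination e12 | linear_combination -e12 | linear_combination e22 |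
      linear_combination -e22
  · fin_cases j <;> fin_cases j' <;> simp only [Fin.zero_eta, Fin.mk_one, Fin.reduceFinMk,
      Fin.isValue] <;> first | ring1 | linear_combination e01 | linear_combination -e01 |
      linear_combination e11 | linear_combination -e11 | linear_combination e21 |
      linear_combination -e21
  · fin_cases j <;> fin_cases j' <;> simp only [Fin.zero_eta, Fin.mk_one, Fin.reduceFinMk,
      Fin.isValue] <;> first | ring1 | linear_combination e02 | linear_combination -e02 |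
      linear_combination e12 | linear_combination -e12 | linear_combination e22 |
      linear_combination -e22
  · ring
  · fin_cases j <;> fin_cases j' <;> simp only [Fin.zero_eta, Fin.mk_one, Fin.reduceFinMk,
      Fin.isValue] <;> first | ring1 | linear_combination e00 | linear_combination -e00 |
      linear_combination e10 | linear_combination -e10 | linear_combination e20 |
      linear_combination -e20
  · fin_cases j <;> fin_cases j' <;> simp only [Fin.zero_eta, Fin.mk_one, Fin.reduceFinMk,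
      Fin.isValue] <;> first | ring1 | linear_combination e01 | linear_combination -e01 |
      linear_combination e11 | linear_combination -e11 | linear_combination e21 |
      linear_combination -e21
  · fin_cases j <;> fin_cases j' <;> simp only [Fin.zero_eta, Fin.mk_one, Fin.reduceFinMk,
      Fin.isValue] <;> first | ring1 | linear_combination e00 | linear_combination -e00 |
      linear_combination e10 | linear_combination -e10 | linear_combination e20 |
      linear_combination -e20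
  · ring

/-- Rank one decomposition. -/
theorem exists_rank_one {A : Matrix (Fin 3) (Fin 3) E} (h : A.adjugate = 0) :
    ∃ x y : Fin 3 → E, A = Matrix.of fun i j => x i * y j := by
  by_cases h0 : A = 0
  · exact ⟨0, 0, by rw [h0]; ext i j; simp⟩
  obtain ⟨i0, j0, hn⟩ : ∃ i j, A i j ≠ 0 := by
    by_contra hc
    push Not at hc
    exact h0 (Matrix.ext hc)
  refine ⟨fun i => A i j0, fun j => A i0 j / A i0 j0, ?_⟩
  ext i j
  rw [Matrix.of_apply]
  have := minor h i i0 j j0
  field_simp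
  linear_combination this

/-- The adjugate of a sum of two matrices of rank one. -/
theorem adj_two (c : E) (x y x' y' : Fin 3 → E) (i j : Fin 3) :
    (Matrix.of fun i j => x i * y j + c * (x' i * y' j)).adjugate i j =
      c * (cr y y' i * cr x x' j) := by
  rw [Matrix.adjugate_fin_three]
  fin_cases i <;> fin_cases j <;> simp [cr] <;> ring

theorem TX_of (ρ : E ≃ₐ[k] E) {lam : E} (hl0 : lam ≠ 0) (x y : Fin 3 → E) :
    TX ρ lam (Matrix.of fun i j => x i * y j) =
      Matrix.of fun i j => lam * (TR ρ lam⁻¹ x i * TR ρ lam⁻¹ y j) := by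
  ext i j
  fin_cases i <;> fin_cases j <;> simp [TX, TR] <;> field_simp

/-- The components `X` vanish if they have rank one. -/
theorem X_zero {ρ : E ≃ₐ[k] E} {lam : E} {B : Type} [AddCommGroup B] [Module E B] {φ : B → B}
    {X : B →ₗ[E] Matrix (Fin 3) (Fin 3) E} (hρ : ∀ x, ρ (ρ (ρ x)) = x) (hl : ρ lam = lam)
    (hl0 : lam ≠ 0) (hN : ∀ x, x * ρ x * ρ (ρ x) ≠ lam)
    (hX : ∀ b, X (φ b) = TX ρ lam (X b)) (h : ∀ b, (X b).adjugate = 0) (b : B) : X b = 0 := by
  obtain ⟨x, y, hxy⟩ := exists_rank_one (h b)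
  have h1 := h (b + φ b)
  have h2 : X (b + φ b) = Matrix.of fun i j => x i * y j +
      lam * (TR ρ lam⁻¹ x i * TR ρ lam⁻¹ y j) := by
    rw [map_add, hX, hxy, TX_of ρ hl0]
    rfl
  rw [h2] at h1
  have hN' : ∀ x, x * ρ x * ρ (ρ x) ≠ lam⁻¹ := by
    intro x hx
    apply hN x⁻¹
    rw [map_inv₀, map_inv₀, ← mul_inv, ← mul_inv, hx, inv_inv]
  have hl' : ρ lam⁻¹ = lam⁻¹ := by rw [map_inv₀, hl]
  have key : (∀ i, cr y (TR ρ lam⁻¹ y) i = 0) ∨ ∀ j, cr x (TR ρ lam⁻¹ x) j = 0 := by
    by_contra hc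
    push Not at hc
    obtain ⟨⟨i, hi⟩, j, hj⟩ := hc
    have h3 := congrFun (congrFun h1 i) j
    rw [adj_two, Matrix.zero_apply] at h3
    exact mul_ne_zero hl0 (mul_ne_zero hi hj) h3
  rcases key with hk | hk
  · have : y = 0 := no_line_TR hρ hl' hN' ⟨hk 0, hk 1, hk 2⟩
    rw [hxy, this]
    ext i j
    simp
  · have : x = 0 := no_line_TR hρ hl' hN' ⟨hk 0, hk 1, hk 2⟩
    rw [hxy, this]
    ext i j
    simp

/-- The form of `X` if it annihilates the vectors of a bijective map. -/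
theorem exists_omega {B : Type} [AddCommGroup B] [Module E B] (t : B ≃ₗ[E] (Fin 3 → E))
    (X : B →ₗ[E] Matrix (Fin 3) (Fin 3) E) (h : ∀ b j, (t b ᵥ* X b) j = 0) :
    ∃ Ω : Matrix (Fin 3) (Fin 3) E, ∀ b, X b = Matrix.of fun i j => cr (fun l => Ω l j) (t b) i := by
  let N : Fin 3 → Matrix (Fin 3) (Fin 3) E := fun l => X (t.symm (Pi.single l 1))
  have hN : ∀ b, X b = t b 0 • N 0 + t b 1 • N 1 + t b 2 • N 2 := by
    intro b
    have h1 : b = t b 0 • t.symm (Pi.single 0 1) + t b 1 • t.symm (Pi.single 1 1) +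
        t b 2 • t.symm (Pi.single 2 1) := by
      apply t.injective
      rw [map_add, map_add, map_smul, map_smul, map_smul, t.apply_symm_apply,
        t.apply_symm_apply, t.apply_symm_apply]
      funext i
      fin_cases i <;> simp
    conv_lhs => rw [h1]
    rw [map_add, map_add, map_smul, map_smul, map_smul]
  have hq : ∀ (r : Fin 3 → E) j, (r 0 * (r 0 * N 0 0 j + r 1 * N 1 0 j + r 2 * N 2 0 j) +
      r 1 * (r 0 * N 0 1 j + r 1 * N 1 1 j + r 2 * N 2 1 j) +
      r 2 * (r 0 * N 0 2 j + r 1 * N 1 2 j + r 2 * N 2 2 j)) = 0 := by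
    intro r j
    have h1 := h (t.symm r) j
    rw [hN, t.apply_symm_apply] at h1
    simp [Matrix.vecMul, dotProduct, Fin.sum_univ_three] at h1
    linear_combination h1
  have q0 := fun j => hq (Pi.single 0 1) j
  have q1 := fun j => hq (Pi.single 1 1) j
  have q2 := fun j => hq (Pi.single 2 1) j
  have q01 := fun j => hq (Pi.single 0 1 + Pi.single 1 1) j
  have q02 := fun j => hq (Pi.single 0 1 + Pi.single 2 1) j
  have q12 := fun j => hq (Pi.single 1 1 + Pi.single 2 1) j
  simp at q0 q1 q2 q01 q02 q12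
  refine ⟨Matrix.of fun i j => ![N 1 2 j, N 2 0 j, N 0 1 j] i, fun b => ?_⟩
  rw [hN]
  ext i j
  fin_cases i
  · simp [cr]
    linear_combination t b 0 * q0 j + t b 1 * (q01 j - q0 j - q1 j)
  · simp [cr]
    linear_combination t b 1 * q1 j + t b 2 * (q12 j - q1 j - q2 j)
  · simp [cr]
    linear_combination t b 2 * q2 j + t b 0 * (q02 j - q0 j - q2 j)

/-- The adjugate of the matrix with columns `ω_j × r`. -/
theorem adj_X (Ω : Matrix (Fin 3) (Fin 3) E) (r : Fin 3 → E) (i j : Fin 3) :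
    (Matrix.of fun i j => cr (fun l => Ω l j) r i).adjugate i j = (Ω.adjugate *ᵥ r) i * r j := by
  rw [Matrix.adjugate_fin_three, Matrix.adjugate_fin_three]
  fin_cases i <;> fin_cases j <;> simp [cr, Matrix.mulVec, dotProduct, Fin.sum_univ_three] <;> ring

/-- The elements `(0, p (Ω s)ᵗ, s fᵗ)` annihilate the space. -/
theorem sing_add {X Y Z : Matrix (Fin 3) (Fin 3) E} {g1 g2 : E} {r : Fin 3 → E}
    (s : Fin 3 → E) {Ω : Matrix (Fin 3) (Fin 3) E} (hS : Sing X Y Z) (hZ0 : ∀ j, Z j 0 = 0)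
    (hY1 : ∀ j, Y 1 j = g1 * r j) (hY2 : ∀ j, Y 2 j = g2 * r j)
    (hX : X = Matrix.of fun i j => cr (fun l => Ω l j) r i)
    (hz : ∀ i, g1 * Z i 1 + g2 * Z i 2 = (Ω.adjugate *ᵥ r) i) :
    Sing X (Y + vecMulVec (Pi.single 0 1) (Ω *ᵥ s)) (Z + vecMulVec s ![0, -g2, g1]) := by
  obtain ⟨h1, h2, h3⟩ := hS
  have e1 := fun i j => congrFun (congrFun h1 i) j
  have e2 := fun i j => congrFun (congrFun h2 i) j
  have e3 := fun i j => congrFun (congrFun h3 i) j
  have z0 := hz 0
  have z1 := hz 1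
  have z2 := hz 2
  have hX' : ∀ i j, X i j = cr (fun l => Ω l j) r i := fun i j => by rw [hX]; rfl
  refine ⟨?_, ?_, ?_⟩
  · rw [h1]
    apply Matrix.ext
    intro i j
    fin_cases j <;> simp [Matrix.mul_apply, Fin.sum_univ_three, vecMulVec_apply, hZ0, hY1, hY2] <;>
      ring
  · apply Matrix.ext
    intro i j
    have e := e2 i j
    rw [Matrix.adjugate_fin_three] at e z0 z1 z2 ⊢
    fin_cases i <;> fin_cases j
    all_goals simp [Matrix.mul_apply, Fin.sum_univ_three, vecMulVec_apply, hZ0, hY1, hY2, hX', cr,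
        Matrix.mulVec, dotProduct] at e z0 z1 z2 ⊢
    · linear_combination e + s 2 * z1 - s 1 * z2
    · linear_combination e + s 0 * z2 - s 2 * z0
    · linear_combination e + s 1 * z0 - s 0 * z1
    all_goals first | linear_combination e | trace_state
  · apply Matrix.ext
    intro i j
    have e := e3 i j
    rw [Matrix.adjugate_fin_three] at e ⊢
    fin_cases i <;> fin_cases j
    all_goals simp [Matrix.mul_apply, Fin.sum_univ_three, vecMulVec_apply, hZ0, hY1, hY2, hX', cr,
        Matrix.mulVec, dotProduct] at e ⊢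
    all_goals first | linear_combination e | trace_state

end main

end Vale.Agent.P011.E6O.Sl
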