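import Vale.Agent.P011.E6O.H342.Slide

/-!
The slides in the first Tits form: the two main statements on stable singular spaces.
-/

open Matrix

namespace Vale.Agent.P011.E6O.Sl

variable {k E : Type} [Field k] [Field E] [Algebra k E]

variable {ρ : E ≃ₐ[k] E} {lam : E} {B : Type} [AddCommGroup B] [Module E B] {φ : B → B}
  {X Y Z : B →ₗ[E] Matrix (Fin 3) (Fin 3) E}

/-- The parameter is not zero. -/
theorem Dta.hl0 (D : Dta ρ lam φ X Y Z) : lam ≠ 0 := by
  intro h
  apply D.hN 0
  rw [zero_mul, zero_mul, h]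

/-- The spaces which are annihilated by a standard point. -/
theorem close (D : Dta ρ lam φ X Y Z)
    (h : ∀ b (r : Fin 3 → E), Sing (X b) (Y b + vecMulVec (Pi.single 0 1) r) (Z b)) :
    ∃ (f1 f2 : E) (t : B →ₗ[E] (Fin 3 → E)), ρ f1 = f1 ∧ ρ f2 = f2 ∧ (f1 ≠ 0 ∨ f2 ≠ 0) ∧
      ∀ b, X b = 0 ∧ (∀ j, Y b 1 j = 0) ∧ (∀ j, Y b 2 j = 0) ∧
        Z b = vecMulVec (t b) ![0, f1, f2] := by
  have hX : ∀ b, X b = 0 := by
    intro b
    ext i j
    have h1 := congrFun (congrFun (h b (Pi.single i 1)).2.1 0) j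
    have h2 := congrFun (congrFun (D.sing b).2.1 0) j
    rw [h2] at h1
    simp only [Matrix.mul_apply, Fin.sum_univ_three, vecMulVec_apply, Matrix.add_apply] at h1
    fin_cases i <;> simp at h1 ⊢
    · exact h1
    · exact h1
    · exact h1
  have hZ : ∀ b j, Z b j 0 = 0 := by
    intro b j
    have h1 := congrFun (congrFun (h b (Pi.single 0 1)).1 j) 0
    have h2 := congrFun (congrFun (D.sing b).1 j) 0
    rw [h2] at h1
    simp [Matrix.mul_apply, Fin.sum_univ_three, vecMulVec_apply, Matrix.add_apply] at h1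
    exact h1
  have hY : ∀ b (r : Fin 3 → E), (Y b + vecMulVec (Pi.single 0 1) r).adjugate = 0 := by
    intro b r
    rw [(h b r).2.2, hX, zero_mul]
  have hY12 : ∀ b j, Y b 1 j = 0 ∧ Y b 2 j = 0 := by
    intro b j
    have h1 := fun r i l => congrFun (congrFun (hY b r) i) l
    have h2 := fun i l => congrFun (congrFun (hY b 0) i) l
    have a0 := h1 (Pi.single 0 1)
    have a1 := h1 (Pi.single 1 1)
    have b01 := h2 0 1
    have b02 := h2 0 2
    have b11 := h2 1 1
    have b12 := h2 1 2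
    have b21 := h2 2 1
    have b22 := h2 2 2
    have a11 := a0 1 1
    have a12 := a0 1 2
    have a21 := a0 2 1
    have a22 := a0 2 2
    have c01 := a1 0 1
    have c02 := a1 0 2
    have c21 := a1 2 1
    have c22 := a1 2 2
    rw [Matrix.adjugate_fin_three] at a11 a12 a21 a22 b01 b02 b11 b12 b21 b22 c01 c02 c21 c22
    simp [vecMulVec_apply] at a11 a12 a21 a22 b01 b02 b11 b12 b21 b22 c01 c02 c21 c22
    fin_cases j
    · simp only [Fin.zero_eta]
      exact ⟨by linear_combination b22 - c22, by linear_combination c21 - b21⟩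
    · simp only [Fin.mk_one]
      exact ⟨by linear_combination a22 - b22, by linear_combination b21 - a21⟩
    · simp only [Fin.reduceFinMk]
      exact ⟨by linear_combination b12 - a12, by linear_combination a11 - b11⟩
  have hpar := parallel D.hρ D.hl D.hN D.h3 D.hφ D.hφ3 (r := colZ Z 1) (s := colZ Z 2)
    (fun b => D.hZ b 1) (fun b => D.hZ b 2) (fun b => by
      have h1 : (Z b).transpose.adjugate = 0 := by
        rw [← Matrix.adjugate_transpose, (D.sing b).2.1, hX, mul_zero, Matrix.transpose_zero]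
      exact adj_col 0 (fun i => by rw [h1]; rfl))
  obtain ⟨f1, f2, t, hf1, hf2, hf, ht, h1, h2⟩ := hpar
  refine ⟨f1, f2, t, hf1, hf2, hf, fun b =>
    ⟨hX b, fun j => (hY12 b j).1, fun j => (hY12 b j).2, ?_⟩⟩
  ext i j
  rw [vecMulVec_apply]
  fin_cases j
  · simp [hZ b i]
  · have := congrFun (LinearMap.congr_fun h1 b) i
    simp only [LinearMap.smul_apply, Pi.smul_apply, smul_eq_mul] at this
    simp only [Fin.mk_one, cons_val_one, cons_val_zero]
    rw [mul_comm, ← this]
    rfl
  · have := congrFun (LinearMap.congr_fun h2 b) i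
    simp only [LinearMap.smul_apply, Pi.smul_apply, smul_eq_mul] at this
    simp only [Fin.reduceFinMk, cons_val]
    rw [mul_comm, ← this]
    rfl

/-- The matrix `Ω` commutes with the semilinear map. -/
theorem omega_comm {Ω : Matrix (Fin 3) (Fin 3) E} (hl0 : lam ≠ 0)
    (h : ∀ r : Fin 3 → E, (Matrix.of fun i j => cr (fun l => Ω l j) (TR ρ lam r) i) =
      TX ρ lam (Matrix.of fun i j => cr (fun l => Ω l j) r i)) (s : Fin 3 → E) :
    TR ρ lam (Ω *ᵥ s) = Ω *ᵥ TR ρ lam s := by
  have e := fun r i j => congrFun (congrFun (h r) i) j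
  have a0 := e (Pi.single 0 1)
  have a1 := e (Pi.single 1 1)
  have a2 := e (Pi.single 2 1)
  have c00 := a0 0 0
  have c01 := a0 0 1
  have c02 := a0 0 2
  have c20 := a0 2 0
  have c21 := a0 2 1
  have c22 := a0 2 2
  have d00 := a1 0 0
  have d01 := a1 0 1
  have d02 := a1 0 2
  have d10 := a1 1 0
  have d11 := a1 1 1
  have d12 := a1 1 2
  simp [cr, TR, TX] at c00 c01 c02 c20 c21 c22 d00 d01 d02 d10 d11 d12
  have c00' : lam * Ω 2 0 = ρ (Ω 1 2) := by rw [c00, mul_inv_cancel_left₀ hl0]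
  have d00' : lam * Ω 1 0 = ρ (Ω 0 2) := by rw [d00, mul_inv_cancel_left₀ hl0]
  funext i
  fin_cases i <;> simp [TR, Matrix.mulVec, dotProduct, Fin.sum_univ_three]
  · linear_combination -(lam * ρ (s 2) * c20) - ρ (s 0) * c21 - ρ (s 1) * c22
  · linear_combination -(ρ (s 2) * d00') - ρ (s 0) * d01 - ρ (s 1) * d02
  · linear_combination -(ρ (s 2) * c00') - ρ (s 0) * c01 - ρ (s 1) * c02

/-- The slide. -/
theorem slide (D : Dta ρ lam φ X Y Z) (h0 : ∀ b j, Z b j 0 = 0) :
    ∃ (f1 f2 : E) (P Q : Matrix (Fin 3) (Fin 3) E), ρ f1 = f1 ∧ ρ f2 = f2 ∧ (f1 ≠ 0 ∨ f2 ≠ 0) ∧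
      (∀ r, TR ρ lam (P *ᵥ r) = P *ᵥ TR ρ lam r) ∧ (∀ r, TR ρ lam (Q *ᵥ r) = Q *ᵥ TR ρ lam r) ∧
      (P = 1 ∨ Q = 1) ∧ ∀ b r, Sing (X b) (Y b + vecMulVec (Pi.single 0 1) (P *ᵥ r))
        (Z b + vecMulVec (Q *ᵥ r) ![0, f1, f2]) := by
  -- the rows 1, 2 of `Y` are parallel
  have hpar := parallel D.hρ D.hl D.hN D.h3 D.hφ D.hφ3 (r := rowY Y 1) (s := rowY Y 2)
    (fun b => D.hY b 1) (fun b => D.hY b 2) (fun b => by
      refine adj_col (A := Y b) 0 (fun i => ?_)
      rw [(D.sing b).2.2, Matrix.mul_apply, Fin.sum_univ_three, h0, h0, h0]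
      ring)
  obtain ⟨g1, g2, t, hg1, hg2, hg, ht, h1, h2⟩ := hpar
  have hY1 : ∀ b j, Y b 1 j = g1 * t b j := fun b j => congrFun (LinearMap.congr_fun h1 b) j
  have hY2 : ∀ b j, Y b 2 j = g2 * t b j := fun b j => congrFun (LinearMap.congr_fun h2 b) j
  by_cases ht0 : t = 0
  · have hY1' : ∀ b j, Y b 1 j = 0 := fun b j => by rw [hY1, ht0]; simp
    have hY2' : ∀ b j, Y b 2 j = 0 := fun b j => by rw [hY2, ht0]; simp
    have hadj : ∀ b, (X b).adjugate = 0 := by
      intro b
      rw [(D.sing b).1]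
      ext i j
      rw [Matrix.mul_apply, Fin.sum_univ_three, h0, hY1', hY2', Matrix.zero_apply]
      ring
    have hX : ∀ b, X b = 0 := fun b => X_zero D.hρ D.hl D.hl0 D.hN D.hX hadj b
    refine ⟨1, 0, 1, 0, map_one _, map_zero _, Or.inl one_ne_zero, fun r => by
      rw [Matrix.one_mulVec, Matrix.one_mulVec], fun r => ?_, Or.inl rfl, fun b r => ?_⟩
    · rw [Matrix.zero_mulVec, Matrix.zero_mulVec]
      funext i
      fin_cases i <;> simp [TR]
    · have hz : Z b + vecMulVec ((0 : Matrix (Fin 3) (Fin 3) E) *ᵥ r) ![0, 1, 0] = Z b := by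
        rw [Matrix.zero_mulVec, Matrix.zero_vecMulVec, add_zero]
      rw [hz]
      have hS := D.sing b
      rw [hX] at hS
      obtain ⟨s1, s2, s3⟩ := hS
      rw [hX]
      rw [mul_zero] at s2
      rw [zero_mul] at s3
      refine ⟨?_, by rw [s2, mul_zero], ?_⟩
      · rw [s1]
        ext i j
        fin_cases j <;> simp [Matrix.mul_apply, Fin.sum_univ_three, h0, hY1', hY2',
          vecMulVec_apply]
      · rw [zero_mul]
        ext i j
        rw [Matrix.adjugate_fin_three]
        fin_cases i <;> fin_cases j <;> simp [hY1', hY2', vecMulVec_apply]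
  · -- `t` is bijective
    have hinj := schur D.hρ D.hl D.hN D.h3 D.hφ D.hφ3 ht ht0
    have hfin : Module.Finite E B := Module.finite_of_finrank_pos (by rw [D.h3]; norm_num)
    have hfr : Module.finrank E B = Module.finrank E (Fin 3 → E) := by
      rw [D.h3, Module.finrank_pi, Fintype.card_fin]
    let te : B ≃ₗ[E] (Fin 3 → E) := t.linearEquivOfInjective hinj hfr
    have hte : ∀ b, te b = t b := fun b => LinearMap.linearEquivOfInjective_apply ..
    have hf : ∀ b, te (φ b) = TR ρ lam (te b) := fun b => by rw [hte, hte, ht]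
    have hann : ∀ b j, (te b ᵥ* X b) j = 0 := by
      intro b j
      have hadj := fun i => congrFun (congrFun (D.sing b).2.1 i) j
      have r1 := hadj 1
      have r2 := hadj 2
      rw [Matrix.adjugate_fin_three] at r1 r2
      simp [Matrix.mul_apply, Fin.sum_univ_three, hY1, hY2] at r1 r2
      rw [hte]
      simp only [Matrix.vecMul, dotProduct, Fin.sum_univ_three]
      rcases hg with hg | hg
      · apply mul_left_cancel₀ hg
        rw [mul_zero]
        fin_cases j <;> simp [h0] at r1 <;> simp only [Fin.zero_eta, Fin.mk_one, Fin.reduceFinMk,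
          Fin.isValue] <;> linear_combination -r1
      · apply mul_left_cancel₀ hg
        rw [mul_zero]
        fin_cases j <;> simp [h0] at r2 <;> simp only [Fin.zero_eta, Fin.mk_one, Fin.reduceFinMk,
          Fin.isValue] <;> linear_combination -r2
    obtain ⟨Ω, hΩ⟩ := exists_omega te X hann
    have hz : ∀ b i, g1 * Z b i 1 + g2 * Z b i 2 = (Ω.adjugate *ᵥ t b) i := by
      intro b i
      by_cases hb : b = 0
      · rw [hb, map_zero, map_zero, Matrix.mulVec_zero]
        simp
      have hb' : t b ≠ 0 := fun h => hb (hinj (by rw [h, map_zero]))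
      obtain ⟨j, hj⟩ : ∃ j, t b j ≠ 0 := by
        by_contra hc
        push Not at hc
        exact hb' (funext hc)
      apply mul_right_cancel₀ hj
      have hadj := congrFun (congrFun (D.sing b).1 i) j
      rw [hΩ, adj_X, hte, Matrix.mul_apply, Fin.sum_univ_three, h0, hY1, hY2] at hadj
      linear_combination -hadj
    refine ⟨-g2, g1, Ω, 1, by rw [map_neg, hg2], hg1, ?_, ?_, fun r => by
      rw [Matrix.one_mulVec, Matrix.one_mulVec], Or.inr rfl, fun b r => ?_⟩
    · rcases hg with hg | hg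
      · exact Or.inr hg
      · exact Or.inl (neg_ne_zero.mpr hg)
    · refine omega_comm D.hl0 (fun r => ?_)
      have e1 := hΩ (φ (te.symm r))
      have e2 := hΩ (te.symm r)
      rw [D.hX, e2, hf, te.apply_symm_apply] at e1
      exact e1.symm
    · rw [Matrix.one_mulVec]
      refine sing_add (r := t b) r (D.sing b) (h0 b) (hY1 b) (hY2 b) ?_ (hz b)
      rw [hΩ, hte]

end Vale.Agent.P011.E6O.Sl
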