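import Vale.Agent.P011.E6O.H493.Co
import Vale.Agent.P011.E6O.H342.Slide2

/-!
The first Tits form of the hermitian matrices over split octonions.
-/

open Matrix

namespace Vale.Agent.P011.E6O.Sl

open Vale.Agent.P011.MPQ Vale.Agent.P011.D4 Vale.Agent.P011.D4.Oct Vale.Agent.P011.E6

section gen

variable {F : Type} [Field F] {a b c : Fˣ} (al : F)

/-- The first component. -/
def XX : Alb a b c →ₗ[F] Matrix (Fin 3) (Fin 3) F where
  toFun x := !![x.d1, ca al x.x3.fst, cb al x.x2.fst;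
    cb al x.x3.fst, x.d2, ca al x.x1.fst;
    ca al x.x2.fst, cb al x.x1.fst, x.d3]
  map_add' x y := by
    ext i j
    fin_cases i <;> fin_cases j <;> simp
  map_smul' t x := by
    ext i j
    fin_cases i <;> fin_cases j <;> simp

/-- The second component. -/
def YY : Alb a b c →ₗ[F] Matrix (Fin 3) (Fin 3) F where
  toFun x := !![ca al x.x1.snd, ca al x.x2.snd, ca al x.x3.snd;
    cg al x.x1.fst, cg al x.x2.fst, cg al x.x3.fst;
    b * c * cd al x.x1.snd, b * c * cd al x.x2.snd, b * c * cd al x.x3.snd]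
  map_add' x y := by
    ext i j
    fin_cases i <;> fin_cases j <;> simp <;> ring
  map_smul' t x := by
    ext i j
    fin_cases i <;> fin_cases j <;> simp <;> ring

/-- The third component. -/
def ZZ : Alb a b c →ₗ[F] Matrix (Fin 3) (Fin 3) F where
  toFun x := !![-c * cb al x.x1.snd, -b * cd al x.x1.fst, cg al x.x1.snd;
    -c * cb al x.x2.snd, -b * cd al x.x2.fst, cg al x.x2.snd;
    -c * cb al x.x3.snd, -b * cd al x.x3.fst, cg al x.x3.snd]
  map_add' x y := by
    ext i j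
    fin_cases i <;> fin_cases j <;> simp <;> ring
  map_smul' t x := by
    ext i j
    fin_cases i <;> fin_cases j <;> simp <;> ring

variable {al}

theorem norm_co (hal : al ^ 2 = a) (x : Oct a b c) : Oct.norm x =
    ca al x.fst * cb al x.fst - b * (cg al x.fst * cd al x.fst) -
      c * (ca al x.snd * cb al x.snd - b * (cg al x.snd * cd al x.snd)) := by
  rw [Oct.norm, nrd_co hal, nrd_co hal]

theorem XX_adj (hal : al ^ 2 = a) (x : Alb a b c) :
    XX al (Alb.adj x) = (XX al x).adjugate - ZZ al x * YY al x := by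
  ext i j
  rw [Matrix.adjugate_fin_three]
  fin_cases i <;> fin_cases j <;>
    simp [XX, YY, ZZ, Alb.adj, Matrix.mul_apply, Fin.sum_univ_three, norm_co hal, ca_mul hal,
      cb_mul hal, cg_mul hal, cd_mul hal] <;> ring

theorem YY_adj0 (hal : al ^ 2 = a) (x : Alb a b c) (j : Fin 3) :
    YY al (Alb.adj x) 0 j = ((ZZ al x).adjugate - YY al x * XX al x) 0 j := by
  rw [Matrix.adjugate_fin_three]
  fin_cases j <;>
    simp [XX, YY, ZZ, Alb.adj, Matrix.mul_apply, Fin.sum_univ_three, ca_mul hal,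
      cb_mul hal, cg_mul hal, cd_mul hal] <;> ring

theorem YY_adj1 (hal : al ^ 2 = a) (x : Alb a b c) (j : Fin 3) :
    YY al (Alb.adj x) 1 j = ((ZZ al x).adjugate - YY al x * XX al x) 1 j := by
  rw [Matrix.adjugate_fin_three]
  fin_cases j <;>
    simp [XX, YY, ZZ, Alb.adj, Matrix.mul_apply, Fin.sum_univ_three, ca_mul hal,
      cb_mul hal, cg_mul hal, cd_mul hal] <;> ring

theorem YY_adj2 (hal : al ^ 2 = a) (x : Alb a b c) (j : Fin 3) :
    YY al (Alb.adj x) 2 j = ((ZZ al x).adjugate - YY al x * XX al x) 2 j := by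
  rw [Matrix.adjugate_fin_three]
  fin_cases j <;>
    simp [XX, YY, ZZ, Alb.adj, Matrix.mul_apply, Fin.sum_univ_three, ca_mul hal,
      cb_mul hal, cg_mul hal, cd_mul hal] <;> ring

theorem YY_adj (hal : al ^ 2 = a) (x : Alb a b c) :
    YY al (Alb.adj x) = (ZZ al x).adjugate - YY al x * XX al x := by
  ext i j
  fin_cases i
  · exact YY_adj0 hal x j
  · exact YY_adj1 hal x j
  · exact YY_adj2 hal x j

theorem ZZ_adj0 (hal : al ^ 2 = a) (x : Alb a b c) (j : Fin 3) :
    ZZ al (Alb.adj x) 0 j = ((YY al x).adjugate - XX al x * ZZ al x) 0 j := by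
  rw [Matrix.adjugate_fin_three]
  fin_cases j <;>
    simp [XX, YY, ZZ, Alb.adj, Matrix.mul_apply, Fin.sum_univ_three, ca_mul hal,
      cb_mul hal, cg_mul hal, cd_mul hal] <;> ring

theorem ZZ_adj1 (hal : al ^ 2 = a) (x : Alb a b c) (j : Fin 3) :
    ZZ al (Alb.adj x) 1 j = ((YY al x).adjugate - XX al x * ZZ al x) 1 j := by
  rw [Matrix.adjugate_fin_three]
  fin_cases j <;>
    simp [XX, YY, ZZ, Alb.adj, Matrix.mul_apply, Fin.sum_univ_three, ca_mul hal,
      cb_mul hal, cg_mul hal, cd_mul hal] <;> ring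

theorem ZZ_adj2 (hal : al ^ 2 = a) (x : Alb a b c) (j : Fin 3) :
    ZZ al (Alb.adj x) 2 j = ((YY al x).adjugate - XX al x * ZZ al x) 2 j := by
  rw [Matrix.adjugate_fin_three]
  fin_cases j <;>
    simp [XX, YY, ZZ, Alb.adj, Matrix.mul_apply, Fin.sum_univ_three, ca_mul hal,
      cb_mul hal, cg_mul hal, cd_mul hal] <;> ring

theorem ZZ_adj (hal : al ^ 2 = a) (x : Alb a b c) :
    ZZ al (Alb.adj x) = (YY al x).adjugate - XX al x * ZZ al x := by
  ext i j
  fin_cases i
  · exact ZZ_adj0 hal x j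
  · exact ZZ_adj1 hal x j
  · exact ZZ_adj2 hal x j

/-- The three components determine the element. -/
theorem ext_Tits (h2 : (2 : F) ≠ 0) (hal : al ^ 2 = a) {x y : Alb a b c}
    (hX : XX al x = XX al y) (hY : YY al x = YY al y) (hZ : ZZ al x = ZZ al y) : x = y := by
  have eX := fun i j => congrFun (congrFun hX i) j
  have eY := fun i j => congrFun (congrFun hY i) j
  have eZ := fun i j => congrFun (congrFun hZ i) j
  have hb : (b : F) ≠ 0 := b.ne_zero
  have hc : (c : F) ≠ 0 := c.ne_zero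
  have X00 := eX 0 0
  have X01 := eX 0 1
  have X02 := eX 0 2
  have X10 := eX 1 0
  have X11 := eX 1 1
  have X12 := eX 1 2
  have X20 := eX 2 0
  have X21 := eX 2 1
  have X22 := eX 2 2
  have Y00 := eY 0 0
  have Y01 := eY 0 1
  have Y02 := eY 0 2
  have Y10 := eY 1 0
  have Y11 := eY 1 1
  have Y12 := eY 1 2
  have Y20 := eY 2 0
  have Y21 := eY 2 1
  have Y22 := eY 2 2
  have Z00 := eZ 0 0
  have Z01 := eZ 0 1
  have Z02 := eZ 0 2
  have Z10 := eZ 1 0
  have Z11 := eZ 1 1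
  have Z12 := eZ 1 2
  have Z20 := eZ 2 0
  have Z21 := eZ 2 1
  have Z22 := eZ 2 2
  simp [XX] at X00 X01 X02 X10 X11 X12 X20 X21 X22
  simp [YY] at Y00 Y01 Y02 Y10 Y11 Y12 Y20 Y21 Y22
  simp [ZZ] at Z00 Z01 Z02 Z10 Z11 Z12 Z20 Z21 Z22
  ext1
  · exact X00
  · exact X11
  · exact X22
  · ext1
    · exact ext_co h2 hal X12 X21 Y10 Z01
    · exact ext_co h2 hal Y00 Z00 Z02 Y20
  · ext1
    · exact ext_co h2 hal X20 X02 Y11 Z11
    · exact ext_co h2 hal Y01 Z10 Z12 Y21
  · ext1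
    · exact ext_co h2 hal X01 X10 Y12 Z21
    · exact ext_co h2 hal Y02 Z20 Z22 Y22

theorem adj_iff (h2 : (2 : F) ≠ 0) (hal : al ^ 2 = a) (x : Alb a b c) :
    Alb.adj x = 0 ↔ Sing (XX al x) (YY al x) (ZZ al x) := by
  constructor
  · intro h
    have h1 := XX_adj hal x
    have h3 := YY_adj hal x
    have h4 := ZZ_adj hal x
    rw [h, map_zero] at h1 h3 h4
    exact ⟨(sub_eq_zero.mp h1.symm), (sub_eq_zero.mp h3.symm), (sub_eq_zero.mp h4.symm)⟩
  · rintro ⟨h1, h3, h4⟩
    apply ext_Tits h2 hal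
    · rw [XX_adj hal, h1, sub_self, map_zero]
    · rw [YY_adj hal, h3, sub_self, map_zero]
    · rw [ZZ_adj hal, h4, sub_self, map_zero]

end gen

end Vale.Agent.P011.E6O.Sl
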