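import Vale.Agent.P011.E6O.Defs
import Vale.Agent.P011.E6O.H342.Tits

/-!
The slides for the hermitian matrices over the split octonions.
-/

open Matrix

namespace Vale.Agent.P011.E6O.Sl

open Vale.Agent.P011.MPQ Vale.Agent.P011.D4 Vale.Agent.P011.D4.Oct Vale.Agent.P011.E6

variable {k E : Type} [Field k] [Field E] [Algebra k E]
  {ρ σ : E ≃ₐ[k] E} {lam : Eˣ} {g : Fin 3 → Eˣ} {al s : E} {a b c : kˣ}

theorem ca_qmap (hρ : ρ al = al) (q : Qt (up E a) (up E b)) :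
    ca al (qmap ρ q) = ρ (ca al q) := by simp [ca, qmap, hρ]

theorem cb_qmap (hρ : ρ al = al) (q : Qt (up E a) (up E b)) :
    cb al (qmap ρ q) = ρ (cb al q) := by simp [cb, qmap, hρ]

theorem cg_qmap (hρ : ρ al = al) (q : Qt (up E a) (up E b)) :
    cg al (qmap ρ q) = ρ (cg al q) := by simp [cg, qmap, hρ]

theorem cd_qmap (hρ : ρ al = al) (q : Qt (up E a) (up E b)) :
    cd al (qmap ρ q) = ρ (cd al q) := by simp [cd, qmap, hρ]

theorem XX_ph (hρ : ρ al = al) (x : AlbL E a b c) :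
    XX al (ph ρ lam x) = TX ρ lam (XX al x) := by
  ext i j
  fin_cases i <;> fin_cases j <;> simp [XX, TX, ph, omap, ca_qmap hρ, cb_qmap hρ]

theorem YY_ph (hρ : ρ al = al) (x : AlbL E a b c) (i : Fin 3) :
    YY al (ph ρ lam x) i = TR ρ lam (YY al x i) := by
  ext j
  fin_cases i <;> fin_cases j <;> simp [YY, TR, ph, omap, ca_qmap hρ, cg_qmap hρ, cd_qmap hρ] <;>
    ring

theorem ZZ_ph (hρ : ρ al = al) (x : AlbL E a b c) (i : Fin 3) :
    (fun j => ZZ al (ph ρ lam x) j i) = TR ρ lam (fun j => ZZ al x j i) := by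
  ext j
  fin_cases i <;> fin_cases j <;> simp [ZZ, TR, ph, omap, cb_qmap hρ, cg_qmap hρ, cd_qmap hρ] <;>
    ring

/-- The elements `u (e l) + s (f₁ (e j) l + f₂ e' j)`. -/
def yI (al f1 f2 : E) (u s : Fin 3 → E) : AlbL E a b c :=
  ⟨0, 0, 0, ⟨mkq _ _ al 0 0 0 (f2 * s 0), mkq _ _ al (u 0) 0 (f1 * s 0) 0⟩,
    ⟨mkq _ _ al 0 0 0 (f2 * s 1), mkq _ _ al (u 1) 0 (f1 * s 1) 0⟩,
    ⟨mkq _ _ al 0 0 0 (f2 * s 2), mkq _ _ al (u 2) 0 (f1 * s 2) 0⟩⟩

section yI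

variable (h2 : (2 : E) ≠ 0) (hal : al ^ 2 = (up E a : E)) (f1 f2 : E) (u s : Fin 3 → E)

include h2 hal

theorem XX_yI : XX al (yI al f1 f2 u s : AlbL E a b c) = 0 := by
  ext i j
  fin_cases i <;> fin_cases j <;> simp [XX, yI, mkq_co h2 hal]

theorem YY_yI : YY al (yI al f1 f2 u s : AlbL E a b c) = vecMulVec (Pi.single 0 1) u := by
  ext i j
  fin_cases i <;> fin_cases j <;> simp [YY, yI, mkq_co h2 hal, vecMulVec_apply]

theorem ZZ_yI : ZZ al (yI al f1 f2 u s : AlbL E a b c) =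
    vecMulVec s ![0, -(up E b : E) * f2, f1] := by
  ext i j
  fin_cases i <;> fin_cases j <;> simp [ZZ, yI, mkq_co h2 hal, vecMulVec_apply] <;> ring

theorem eq_yI {x : AlbL E a b c} (hX : XX al x = 0) (h1 : ∀ j, YY al x 1 j = 0)
    (h3 : ∀ j, YY al x 2 j = 0) {t : Fin 3 → E} {g1 g2 : E}
    (hZ : ZZ al x = vecMulVec t ![0, g1, g2]) :
    x = yI al g2 (-(g1 * (up E b : E)⁻¹)) (YY al x 0) t := by
  have hb : (up E b : E) ≠ 0 := (up E b).ne_zero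
  apply ext_Tits h2 hal
  · rw [hX, XX_yI h2 hal]
  · rw [YY_yI h2 hal]
    ext i j
    fin_cases i
    · simp [vecMulVec_apply]
    · simpa [vecMulVec_apply] using h1 j
    · simpa [vecMulVec_apply] using h3 j
  · rw [ZZ_yI h2 hal, hZ]
    congr 1
    funext i
    fin_cases i
    · rfl
    · change g1 = -(up E b : E) * -(g1 * (up E b : E)⁻¹)
      field_simp
    · rfl

theorem adj_yI : Alb.adj (yI al f1 f2 u s : AlbL E a b c) = 0 := by
  rw [adj_iff h2 hal, XX_yI h2 hal, YY_yI h2 hal, ZZ_yI h2 hal]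
  refine ⟨?_, ?_, ?_⟩
  · ext i j
    rw [Matrix.adjugate_fin_three]
    fin_cases i <;> fin_cases j <;>
      simp [Matrix.mul_apply, Fin.sum_univ_three, vecMulVec_apply]
  · ext i j
    rw [Matrix.adjugate_fin_three]
    fin_cases i <;> fin_cases j <;>
      simp [Matrix.mul_apply, Fin.sum_univ_three, vecMulVec_apply] <;> ring
  · ext i j
    rw [Matrix.adjugate_fin_three]
    fin_cases i <;> fin_cases j <;>
      simp [Matrix.mul_apply, Fin.sum_univ_three, vecMulVec_apply]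

theorem ph_yI (hρ : ρ al = al) (hf1 : ρ f1 = f1) (hf2 : ρ f2 = f2) :
    ph ρ lam (yI al f1 f2 u s : AlbL E a b c) = yI al f1 f2 (TR ρ lam u) (TR ρ lam s) := by
  apply ext_Tits h2 hal
  · rw [XX_ph hρ, XX_yI h2 hal, XX_yI h2 hal]
    ext i j
    fin_cases i <;> fin_cases j <;> simp [TX]
  · ext i j
    rw [YY_ph hρ, YY_yI h2 hal, YY_yI h2 hal]
    fin_cases i <;> fin_cases j <;> simp [vecMulVec_apply, TR]
  · ext i j
    have h := congrFun (ZZ_ph (lam := lam) hρ (yI al f1 f2 u s : AlbL E a b c) j) i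
    rw [ZZ_yI h2 hal] at h ⊢
    rw [h]
    fin_cases i <;> fin_cases j <;> simp [vecMulVec_apply, TR, hf1, hf2] <;> ring

end yI

theorem omap_smul' (ρ : E ≃ₐ[k] E) (t : E) (y : OctL E a b c) :
    omap ρ (t • y) = ρ t • omap ρ y := by
  ext1
  · change qmap ρ (t • y.fst) = ρ t • qmap ρ y.fst
    ext1 <;> simp only [qmap, QuaternionAlgebra.re_smul, QuaternionAlgebra.imI_smul,
      QuaternionAlgebra.imJ_smul, QuaternionAlgebra.imK_smul, smul_eq_mul, map_mul]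
  · change qmap ρ (t • y.snd) = ρ t • qmap ρ y.snd
    ext1 <;> simp only [qmap, QuaternionAlgebra.re_smul, QuaternionAlgebra.imI_smul,
      QuaternionAlgebra.imJ_smul, QuaternionAlgebra.imK_smul, smul_eq_mul, map_mul]

theorem ph3 (H : Hyp ρ σ lam g al s a b c) (x : AlbL E a b c) :
    ph ρ lam (ph ρ lam (ph ρ lam x)) = (lam : E) • x := by
  have hl : (lam : E) ≠ 0 := lam.ne_zero
  have ho : ∀ y : OctL E a b c, omap ρ (omap ρ (omap ρ y)) = y := by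
    intro y
    ext1 <;> ext1 <;> simp [omap, qmap, H.ρ3]
  have hs : ∀ (t : E) (y : OctL E a b c), omap ρ (t • y) = ρ t • omap ρ y := omap_smul' ρ
  ext1
  · simp [ph, H.ρlam, H.ρ3]
  · simp [ph, H.ρlam, H.ρ3]
  · simp [ph, H.ρlam, H.ρ3]
  · simp only [ph, hs, H.ρlam, ho, Alb.x1_smul]
  · simp only [ph, hs, H.ρlam, ho, Alb.x2_smul]
  · simp only [ph, hs, H.ρlam, ho, Alb.x3_smul]

theorem ph_smul' (t : E) (x : AlbL E a b c) : ph ρ lam (t • x) = ρ t • ph ρ lam x := by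
  have hs : ∀ (t : E) (y : OctL E a b c), omap ρ (t • y) = ρ t • omap ρ y := omap_smul' ρ
  ext1
  · simp [ph]; ring
  · simp [ph]; ring
  · simp [ph]; ring
  · simp only [ph, hs, Alb.x1_smul, Alb.x3_smul, smul_smul, mul_comm]
  · simp only [ph, hs, Alb.x2_smul, Alb.x1_smul]
  · simp only [ph, hs, Alb.x3_smul, Alb.x2_smul]

/-- The data attached to a point. -/
theorem dta (H : Hyp ρ σ lam g al s a b c) (h2 : (2 : E) ≠ 0) {B : Submodule E (AlbL E a b c)}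
    (hB : IsPt ρ lam B) :
    Dta ρ (lam : E) (B := B) (fun x => ⟨ph ρ lam x.1, hB.ph x.1 x.2⟩) ((XX al).comp B.subtype)
      ((YY al).comp B.subtype) ((ZZ al).comp B.subtype) where
  hρ := H.ρ3
  hl := H.ρlam
  hN := H.hlam
  h3 := hB.dim
  hφ t v := Subtype.ext (ph_smul' t v.1)
  hφ3 v := Subtype.ext (ph3 H v.1)
  hX v := XX_ph H.ρal v.1
  hY v i := YY_ph H.ρal v.1 i
  hZ v i := ZZ_ph H.ρal v.1 i
  sing v := (adj_iff h2 H.al2 v.1).mp (hB.adj v.1 v.2)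

/-- The linear map `r ↦ yI (P r) (Q r)`. -/
def yL (h2 : (2 : E) ≠ 0) (hal : al ^ 2 = (up E a : E)) (f1 f2 : E)
    (P Q : Matrix (Fin 3) (Fin 3) E) : (Fin 3 → E) →ₗ[E] AlbL E a b c where
  toFun r := yI al f1 f2 (P *ᵥ r) (Q *ᵥ r)
  map_add' x y := by
    apply ext_Tits h2 hal
    · rw [map_add, XX_yI h2 hal, XX_yI h2 hal, XX_yI h2 hal, add_zero]
    · rw [map_add, YY_yI h2 hal, YY_yI h2 hal, YY_yI h2 hal, Matrix.mulVec_add,
        Matrix.vecMulVec_add]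
    · rw [map_add, ZZ_yI h2 hal, ZZ_yI h2 hal, ZZ_yI h2 hal, Matrix.mulVec_add,
        Matrix.add_vecMulVec]
  map_smul' t x := by
    apply ext_Tits h2 hal
    · rw [map_smul, XX_yI h2 hal, XX_yI h2 hal, smul_zero]
    · rw [map_smul, YY_yI h2 hal, YY_yI h2 hal, Matrix.mulVec_smul, Matrix.vecMulVec_smul]
      rfl
    · rw [map_smul, ZZ_yI h2 hal, ZZ_yI h2 hal, Matrix.mulVec_smul, Matrix.smul_vecMulVec]
      rfl

/-- The slide. -/
theorem slideB (H : Hyp ρ σ lam g al s a b c) (h2 : (2 : E) ≠ 0)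
    {B : Submodule E (AlbL E a b c)} (hB : IsPt ρ lam B)
    (h0 : ∀ x ∈ B, cb al x.x1.snd = 0 ∧ cb al x.x2.snd = 0 ∧ cb al x.x3.snd = 0) :
    ∃ f1 f2 : E, ρ f1 = f1 ∧ ρ f2 = f2 ∧ (f1 ≠ 0 ∨ f2 ≠ 0) ∧
      ∃ A : Submodule E (AlbL E a b c), IsPt ρ lam A ∧
        (∀ y ∈ A, ∃ u s : Fin 3 → E, y = yI al f1 f2 u s) ∧
        ∀ y ∈ A, ∀ x ∈ B, Alb.adj (x + y) = 0 := by
  have hb : (up E b : E) ≠ 0 := (up E b).ne_zero
  have hρb : ρ (up E b : E) = (up E b : E) := ρ.commutes b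
  obtain ⟨f1, f2, P, Q, hf1, hf2, hf, hP, hQ, h1, hS⟩ := slide (dta H h2 hB) (fun x j => by
    obtain ⟨e1, e3, e4⟩ := h0 x.1 x.2
    fin_cases j <;> simp [ZZ, e1, e3, e4])
  set f3 : E := -(f1 * (up E b : E)⁻¹) with hf3
  have hρf3 : ρ f3 = f3 := by rw [hf3, map_neg, map_mul, map_inv₀, hf1, hρb]
  have hbf : -(up E b : E) * f3 = f1 := by rw [hf3]; field_simp
  have hf' : f2 ≠ 0 ∨ f3 ≠ 0 := by
    rcases hf with hf | hf
    · right
      intro h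
      rw [h, mul_zero] at hbf
      exact hf hbf.symm
    · exact Or.inl hf
  refine ⟨f2, f3, hf2, hρf3, hf', LinearMap.range (yL h2 H.al2 f2 f3 P Q), ⟨?_, ?_, ?_⟩, ?_, ?_⟩
  · rw [LinearMap.finrank_range_of_inj, Module.finrank_pi, Fintype.card_fin]
    rw [injective_iff_map_eq_zero]
    intro r hr
    have hY : YY al (yI al f2 f3 (P *ᵥ r) (Q *ᵥ r) : AlbL E a b c) = 0 := by
      have : (yI al f2 f3 (P *ᵥ r) (Q *ᵥ r) : AlbL E a b c) = 0 := hr
      rw [this, map_zero]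
    have hZ : ZZ al (yI al f2 f3 (P *ᵥ r) (Q *ᵥ r) : AlbL E a b c) = 0 := by
      have : (yI al f2 f3 (P *ᵥ r) (Q *ᵥ r) : AlbL E a b c) = 0 := hr
      rw [this, map_zero]
    rw [YY_yI h2 H.al2] at hY
    rw [ZZ_yI h2 H.al2, hbf] at hZ
    rcases h1 with h1 | h1
    · funext j
      have := congrFun (congrFun hY 0) j
      rw [h1, Matrix.one_mulVec] at this
      simpa [vecMulVec_apply] using this
    · funext j
      rcases hf with hf | hf
      · have := congrFun (congrFun hZ j) 1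
        rw [h1, Matrix.one_mulVec] at this
        simpa [vecMulVec_apply, hf] using this
      · have := congrFun (congrFun hZ j) 2
        rw [h1, Matrix.one_mulVec] at this
        simpa [vecMulVec_apply, hf] using this
  · rintro _ ⟨r, rfl⟩
    refine ⟨TR ρ lam r, ?_⟩
    change yI al f2 f3 (P *ᵥ TR ρ lam r) (Q *ᵥ TR ρ lam r) =
      ph ρ lam (yI al f2 f3 (P *ᵥ r) (Q *ᵥ r) : AlbL E a b c)
    rw [ph_yI h2 H.al2 f2 f3 _ _ H.ρal hf2 hρf3, hP, hQ]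
  · rintro _ ⟨r, rfl⟩
    exact adj_yI h2 H.al2 f2 f3 _ _
  · rintro _ ⟨r, rfl⟩
    exact ⟨_, _, rfl⟩
  · rintro _ ⟨r, rfl⟩ x hx
    rw [adj_iff h2 H.al2]
    change Sing (XX al (x + yI al f2 f3 (P *ᵥ r) (Q *ᵥ r)))
      (YY al (x + yI al f2 f3 (P *ᵥ r) (Q *ᵥ r))) (ZZ al (x + yI al f2 f3 (P *ᵥ r) (Q *ᵥ r)))
    rw [map_add, map_add, map_add, XX_yI h2 H.al2, YY_yI h2 H.al2, ZZ_yI h2 H.al2, hbf, add_zero]
    exact hS ⟨x, hx⟩ r

/-- The points which are annihilated by the standard point. -/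
theorem slideC (H : Hyp ρ σ lam g al s a b c) (h2 : (2 : E) ≠ 0)
    {B : Submodule E (AlbL E a b c)} (hB : IsPt ρ lam B)
    (h : ∀ x ∈ B, ∀ r : Fin 3 → E, Alb.adj (x + yI al 1 0 r 0) = 0) :
    ∃ f1 f2 : E, ρ f1 = f1 ∧ ρ f2 = f2 ∧ (f1 ≠ 0 ∨ f2 ≠ 0) ∧
      ∀ x ∈ B, ∃ u s : Fin 3 → E, x = yI al f1 f2 u s := by
  have hb : (up E b : E) ≠ 0 := (up E b).ne_zero
  have hρb : ρ (up E b : E) = (up E b : E) := ρ.commutes b
  obtain ⟨f1, f2, t, hf1, hf2, hf, hx⟩ := close (dta H h2 hB) (fun x r => by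
    have h1 := (adj_iff h2 H.al2 _).mp (h x.1 x.2 r)
    rw [map_add, map_add, map_add, XX_yI h2 H.al2, YY_yI h2 H.al2, ZZ_yI h2 H.al2, add_zero,
      Matrix.zero_vecMulVec, add_zero] at h1
    exact h1)
  refine ⟨f2, -(f1 * (up E b : E)⁻¹), hf2, by rw [map_neg, map_mul, map_inv₀, hf1, hρb], ?_,
    fun x hxB => ?_⟩
  · rcases hf with hf | hf
    · right
      exact neg_ne_zero.mpr (mul_ne_zero hf (inv_ne_zero hb))
    · exact Or.inl hf
  · obtain ⟨e1, e3, e4, e5⟩ := hx ⟨x, hxB⟩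
    exact ⟨_, _, eq_yI h2 H.al2 e1 e3 e4 e5⟩

end Vale.Agent.P011.E6O.Sl
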